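import Vale.Agent.P214.Bdl.B1
import Mathlib.Analysis.SpecialFunctions.Log.Deriv
import Mathlib.Analysis.SpecialFunctions.Sqrt

/-! Heights over a fixed plane: logarithmic stability of the normalised height at a fixed centre,
and the mean value inequality. -/

open Set Filter Topology MeasureTheory Metric
open scoped RealInnerProductSpace

set_option linter.unusedSectionVars false

namespace Vale.Agent.P214

variable {E : Type*} [NormedAddCommGroup E] [InnerProductSpace ℝ E] [FiniteDimensional ℝ E]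
  [MeasurableSpace E] [BorelSpace E]

variable {m : ℕ} {O : Set E} {ν : Measure E} {P : E → E →L[ℝ] E}

namespace HS

/-- squared height over the plane `T`, measured from the level of `z` -/
noncomputable def hsq (T : Submodule ℝ E) (z y : E) : ℝ := ‖Tᗮ.starProjection (y - z)‖ ^ 2

/-- normalised height at the centre `z` -/
noncomputable def height (m : ℕ) (ν : Measure E) (T : Submodule ℝ E) (z : E) (r : ℝ) : ℝ :=
  wmass ν z (hsq T z) r / r ^ (m + 2)

lemma hsq_nonneg (T : Submodule ℝ E) (z y : E) : 0 ≤ hsq T z y := sq_nonneg _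

lemma contDiff_hsq (T : Submodule ℝ E) (z : E) {k : WithTop ℕ∞} : ContDiff ℝ k (hsq T z) := by
  unfold hsq
  exact (Tᗮ.starProjection.contDiff.comp (contDiff_id.sub contDiff_const)).norm_sq ℝ

lemma inner_starProjection_self (S : Submodule ℝ E) (u v : E) :
    ⟪S.starProjection u, S.starProjection v⟫ = ⟪S.starProjection u, v⟫ := by
  rw [← Submodule.inner_starProjection_left_eq_right]
  rw [Submodule.starProjection_eq_self_iff.2 (S.starProjection_apply_mem u)]

lemma fderiv_hsq (T : Submodule ℝ E) (z y v : E) :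
    fderiv ℝ (hsq T z) y v = 2 * ⟪Tᗮ.starProjection (y - z), v⟫ := by
  have h1 : HasFDerivAt (fun y : E => Tᗮ.starProjection (y - z)) Tᗮ.starProjection y := by
    have h3 : HasFDerivAt (fun y : E => y - z) (ContinuousLinearMap.id ℝ E) y :=
      (hasFDerivAt_id y).sub_const z
    exact (Tᗮ.starProjection.hasFDerivAt (x := y - z)).comp y h3
  have h2 := h1.norm_sq
  have h4 : fderiv ℝ (hsq T z) y = _ := h2.fderiv
  rw [h4]
  simp only [_root_.smul_apply, ContinuousLinearMap.comp_apply, innerSL_apply_apply]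
  rw [inner_starProjection_self]
  simp

/-- the mixed term -/
noncomputable def mixTerm (ν : Measure E) (P : E → E →L[ℝ] E) (T : Submodule ℝ E) (z : E)
    (r : ℝ) : ℝ :=
  ∫ y, cut z r y * ⟪Tᗮ.starProjection (y - z), (y - z) - P y (y - z)⟫ ∂ν

variable {T : Submodule ℝ E} {z : E} {r : ℝ}

lemma meas_normal (h : LocStat m O ν P) :
    AEStronglyMeasurable (fun y => (y - z) - P y (y - z)) ν := by
  have hid : AEStronglyMeasurable (fun y : E => y - z) ν :=
    (by fun_prop : Continuous fun y : E => y - z).aestronglyMeasurable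
  exact hid.sub (aesm_clm_apply h.meas hid)

lemma norm_normal_le (h : LocStat m O ν P) :
    ∀ᵐ y ∂ν, ‖(y - z) - P y (y - z)‖ ≤ ‖y - z‖ := by
  filter_upwards [h.proj] with y hy
  obtain ⟨S, -, hS⟩ := hy
  have h3 : Sᗮ.starProjection (y - z) = (y - z) - S.starProjection (y - z) := by
    rw [S.starProjection_orthogonal']; simp
  rw [hS, ← h3]
  simpa using Sᗮ.starProjection.le_of_opNorm_le Sᗮ.starProjection_norm_le (y - z)

lemma integrable_mix [IsFiniteMeasure ν] (h : LocStat m O ν P) (hr : 0 < r) :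
    Integrable (fun y => cut z r y * ⟪Tᗮ.starProjection (y - z), (y - z) - P y (y - z)⟫) ν := by
  have hM : AEStronglyMeasurable
      (fun y => cut z r y * ⟪Tᗮ.starProjection (y - z), (y - z) - P y (y - z)⟫) ν := by
    refine (continuous_cut z r).aestronglyMeasurable.mul ?_
    exact (by fun_prop : Continuous fun y : E => Tᗮ.starProjection (y - z)).aestronglyMeasurable.inner
      (meas_normal h)
  have hb : Integrable (fun y => cut z r y * (‖y - z‖ * ‖y - z‖)) ν := by
    refine integrable_of_ball (x := z) ?_ hr fun y hy => by rw [cut_eq_zero hr hy, zero_mul]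
    have h1 := continuous_cut z r
    fun_prop
  refine hb.mono' hM ?_
  filter_upwards [norm_normal_le (z := z) h] with y hy
  rw [norm_mul, Real.norm_of_nonneg (cut_nonneg z r y)]
  have hc0 := cut_nonneg z r y
  gcongr
  refine (norm_inner_le_norm _ _).trans ?_
  gcongr
  simpa using Tᗮ.starProjection.le_of_opNorm_le Tᗮ.starProjection_norm_le (y - z)

lemma integrable_cut_hsq [IsFiniteMeasure ν] (hr : 0 < r) (x : E) :
    Integrable (fun y => cut x r y * hsq T z y) ν := by
  refine integrable_of_ball (x := x) ?_ hr fun y hy => by rw [cut_eq_zero hr hy, zero_mul]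
  have h1 := continuous_cut x r
  have h2 := (contDiff_hsq T z (k := 0)).continuous
  fun_prop

lemma integrable_cut_normal [IsFiniteMeasure ν] (h : LocStat m O ν P) (hr : 0 < r) :
    Integrable (fun y => cut z r y * ‖(y - z) - P y (y - z)‖ ^ 2) ν := by
  have hM : AEStronglyMeasurable (fun y => cut z r y * ‖(y - z) - P y (y - z)‖ ^ 2) ν :=
    (continuous_cut z r).aestronglyMeasurable.mul ((meas_normal h).norm.pow 2)
  have hb : Integrable (fun y => cut z r y * ‖y - z‖ ^ 2) ν := by
    refine integrable_of_ball (x := z) ?_ hr fun y hy => by rw [cut_eq_zero hr hy, zero_mul]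
    have h1 := continuous_cut z r
    fun_prop
  refine hb.mono' hM ?_
  filter_upwards [norm_normal_le (z := z) h] with y hy
  rw [norm_mul, Real.norm_of_nonneg (cut_nonneg z r y), Real.norm_of_nonneg (by positivity)]
  have hc0 := cut_nonneg z r y
  gcongr

lemma integrable_dcut_normal [IsFiniteMeasure ν] (h : LocStat m O ν P) (hr : 0 < r) :
    Integrable (fun y => dcut z r y * 1 * ‖(y - z) - P y (y - z)‖ ^ 2) ν := by
  have hM : AEStronglyMeasurable (fun y => dcut z r y * 1 * ‖(y - z) - P y (y - z)‖ ^ 2) ν :=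
    ((continuous_dcut z r).mul continuous_const).aestronglyMeasurable.mul
      ((meas_normal h).norm.pow 2)
  have hb : Integrable (fun y => dcut z r y * ‖y - z‖ ^ 2) ν := by
    refine integrable_of_ball (x := z) ?_ hr fun y hy => by rw [dcut_eq_zero hr hy, zero_mul]
    have h1 := continuous_dcut z r
    fun_prop
  refine hb.mono' hM ?_
  filter_upwards [norm_normal_le (z := z) h] with y hy
  rw [mul_one, norm_mul, Real.norm_of_nonneg (dcut_nonneg z r y),
    Real.norm_of_nonneg (by positivity)]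
  have hc0 := dcut_nonneg z r y
  gcongr

/-- `cut ≤ dcut / 2` -/
lemma cut_le_dcut (hr : 0 < r) (x y : E) : cut x r y ≤ dcut x r y / 2 := by
  unfold cut dcut prof dprof
  have h0 : 0 ≤ ‖y - x‖ ^ 2 / r ^ 2 := by positivity
  set s := ‖y - x‖ ^ 2 / r ^ 2
  rcases le_total (1 - s) 0 with h | h
  · rw [max_eq_right h]; simp
  · rw [max_eq_left h]; nlinarith

/-- the gradient term of the height -/
lemma gradTerm_hsq [IsFiniteMeasure ν] (h : LocStat m O ν P) (hr : 0 < r) :
    gradTerm ν P z (hsq T z) r = 2 * wmass ν z (hsq T z) r - 2 * mixTerm ν P T z r := by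
  unfold gradTerm wmass mixTerm
  rw [← integral_const_mul, ← integral_const_mul, ← integral_sub]
  · refine integral_congr_ae (Eventually.of_forall fun y => ?_)
    simp only
    rw [fderiv_hsq]
    have e1 : ⟪Tᗮ.starProjection (y - z), (y - z) - P y (y - z)⟫
        = ⟪Tᗮ.starProjection (y - z), y - z⟫ - ⟪Tᗮ.starProjection (y - z), P y (y - z)⟫ :=
      inner_sub_right _ _ _
    have e2 : ⟪Tᗮ.starProjection (y - z), y - z⟫ = hsq T z y := by
      rw [← inner_starProjection_self, real_inner_self_eq_norm_sq]; rfl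
    rw [e1, e2]; ring
  · exact (integrable_cut_hsq hr z).const_mul 2
  · exact (integrable_mix h hr).const_mul 2

/-- the mixed term is controlled -/
lemma mixTerm_le [IsFiniteMeasure ν] (h : LocStat m O ν P) (hr : 0 < r) {t : ℝ} (ht : 0 < t) :
    2 * mixTerm ν P T z r ≤ t * wmass ν z (hsq T z) r
      + 1 / (2 * t) * tiltTerm ν P z (fun _ => 1) r := by
  unfold mixTerm wmass tiltTerm
  rw [← integral_const_mul, ← integral_const_mul, ← integral_const_mul, ← integral_add]
  · refine integral_mono_ae ((integrable_mix h hr).const_mul 2)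
      (((integrable_cut_hsq hr z).const_mul t).add ((integrable_dcut_normal h hr).const_mul _)) ?_
    refine Eventually.of_forall fun y => ?_
    simp only
    set u := Tᗮ.starProjection (y - z) with hu
    set w := (y - z) - P y (y - z) with hw
    have h1 : ⟪u, w⟫ ≤ ‖u‖ * ‖w‖ := real_inner_le_norm _ _
    have h2 : 2 * (‖u‖ * ‖w‖) ≤ t * ‖u‖ ^ 2 + 1 / t * ‖w‖ ^ 2 := by
      have : 0 ≤ (t * ‖u‖ - ‖w‖) ^ 2 / t := by positivity
      have e : (t * ‖u‖ - ‖w‖) ^ 2 / t = t * ‖u‖ ^ 2 - 2 * (‖u‖ * ‖w‖) + 1 / t * ‖w‖ ^ 2 := by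
        field_simp; ring
      linarith
    have h3 := cut_nonneg z r y
    have h4 := cut_le_dcut hr z y
    have h5 : 2 * ⟪u, w⟫ ≤ t * ‖u‖ ^ 2 + 1 / t * ‖w‖ ^ 2 := by linarith
    have h6 : cut z r y * (2 * ⟪u, w⟫) ≤ cut z r y * (t * ‖u‖ ^ 2 + 1 / t * ‖w‖ ^ 2) :=
      mul_le_mul_of_nonneg_left h5 h3
    have h7 : cut z r y * (1 / t * ‖w‖ ^ 2) ≤ dcut z r y / 2 * (1 / t * ‖w‖ ^ 2) :=
      mul_le_mul_of_nonneg_right h4 (by positivity)
    have e8 : hsq T z y = ‖u‖ ^ 2 := rfl
    rw [e8]
    have e9 : 1 / (2 * t) * (dcut z r y * 1 * ‖w‖ ^ 2) = dcut z r y / 2 * (1 / t * ‖w‖ ^ 2) := by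
      field_simp
    rw [e9]
    nlinarith
  · exact (integrable_cut_hsq hr z).const_mul t
  · exact (integrable_dcut_normal h hr).const_mul _

/-- derivative of the height -/
lemma hasDerivAt_height [IsFiniteMeasure ν] (h : LocStat m O ν P) (hr : 0 < r)
    (hball : closedBall z r ⊆ O) :
    HasDerivAt (height m ν T z)
      ((2 / r ^ 2 * tiltTerm ν P z (hsq T z) r - 2 * mixTerm ν P T z r) / r ^ (m + 3)) r := by
  have h1 := h.hasDerivAt_ratio (contDiff_hsq T z) hr hball
  have h2 : HasDerivAt (fun s : ℝ => s ^ 2) (2 * r) r := by simpa using hasDerivAt_pow 2 r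
  have h3 := h1.div h2 (by positivity)
  have h4 : (fun s => wmass ν z (hsq T z) s / s ^ m / s ^ 2) = height m ν T z := by
    funext s; unfold height; rw [div_div, ← pow_add]
  have h5 : HasDerivAt (fun s => wmass ν z (hsq T z) s / s ^ m / s ^ 2) _ r := h3
  rw [h4] at h5
  refine h5.congr_deriv ?_
  rw [gradTerm_hsq h hr]
  have e1 : r ^ (m + 3) = r ^ m * r ^ 3 := pow_add _ _ _
  have e2 : r ^ (m + 1) = r ^ m * r := pow_succ _ _
  have hrm : r ^ m ≠ 0 := by positivity
  rw [e1, e2]
  field_simp
  ring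

lemma height_nonneg (hr : 0 < r) : 0 ≤ height m ν T z r := by
  unfold height wmass
  have : 0 ≤ ∫ y, cut z r y * hsq T z y ∂ν :=
    integral_nonneg fun y => mul_nonneg (cut_nonneg z r y) (hsq_nonneg T z y)
  positivity

lemma tilt_hsq_nonneg : 0 ≤ tiltTerm ν P z (hsq T z) r :=
  tiltTerm_nonneg fun y => hsq_nonneg T z y

/-- **Logarithmic stability of the height**, parametric form. -/
theorem sqrt_height_le_param [IsFiniteMeasure ν] (h : LocStat m O ν P) {r₁ r₂ : ℝ} (h1 : 0 < r₁)
    (h12 : r₁ ≤ r₂) (hball : closedBall z r₂ ⊆ O) {s : ℝ} (hs : 0 < s) :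
    √(height m ν T z r₁) ≤ √(height m ν T z r₂) + s * Real.log (r₂ / r₁) / 2
      + (ratio m ν z r₂ - ratio m ν z r₁) / (8 * s) := by
  -- with `ε`
  have key : ∀ ε > 0, √(height m ν T z r₁ + ε) ≤ √(height m ν T z r₂ + ε)
      + s * Real.log (r₂ / r₁) / 2 + (ratio m ν z r₂ - ratio m ν z r₁) / (8 * s) := by
    intro ε hε
    have hd : ∀ t ∈ Icc r₁ r₂, ∃ d, 0 ≤ d ∧ HasDerivAt
        (fun t => √(height m ν T z t + ε) + s * Real.log t / 2 + ratio m ν z t / (8 * s)) d t := by
      intro t ht
      have ht0 : 0 < t := h1.trans_le ht.1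
      have hb : closedBall z t ⊆ O := (closedBall_subset_closedBall ht.2).trans hball
      have d1 := hasDerivAt_height (T := T) h ht0 hb
      have hpos : 0 < height m ν T z t + ε := by
        have := height_nonneg (m := m) (ν := ν) (T := T) (z := z) ht0
        linarith
      have d2 := (d1.add_const ε).sqrt hpos.ne'
      have d3 := ((Real.hasDerivAt_log ht0.ne').const_mul s).div_const 2
      have d4 := (h.hasDerivAt_ratio (w := fun _ => 1) contDiff_const ht0 hb).div_const (8 * s)
      rw [gradTerm_one] at d4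
      have d4' : HasDerivAt (fun t => ratio m ν z t / (8 * s))
          ((2 / t ^ 2 * tiltTerm ν P z (fun _ => 1) t + 0) / t ^ (m + 1) / (8 * s)) t := by
        refine d4.congr_of_eventuallyEq (Eventually.of_forall fun u => ?_)
        simp only [wmass_one, ratio]
      refine ⟨_, ?_, (d2.add d3).add d4'⟩
      -- nonnegativity
      set q := √(height m ν T z t + ε) with hq
      have hq0 : 0 < q := Real.sqrt_pos.2 hpos
      have hq2 : q ^ 2 = height m ν T z t + ε := Real.sq_sqrt hpos.le
      set H := wmass ν z (hsq T z) t with hH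
      have hH2 : H = height m ν T z t * t ^ (m + 2) := by
        unfold height; rw [← hH]; field_simp
      set τ := tiltTerm ν P z (fun _ => 1) t with hτ
      have hτ0 : 0 ≤ τ := tiltTerm_nonneg fun y => zero_le_one
      have m1 := mixTerm_le (T := T) (z := z) h ht0 (t := s / q) (by positivity)
      rw [← hH, ← hτ] at m1
      have m2 : 0 ≤ tiltTerm ν P z (hsq T z) t := tilt_hsq_nonneg
      have hle : height m ν T z t ≤ q ^ 2 := by rw [hq2]; linarith
      have m3 : s / q * H ≤ s * q * t ^ (m + 2) := by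
        rw [hH2, div_mul_eq_mul_div, div_le_iff₀ hq0]
        have : s * (height m ν T z t * t ^ (m + 2)) ≤ s * (q ^ 2 * t ^ (m + 2)) := by gcongr
        calc _ ≤ _ := this
          _ = _ := by ring
      have m4 : 1 / (2 * (s / q)) * τ = q * τ / (2 * s) := by field_simp
      rw [m4] at m1
      have m5 : -(s * q * t ^ (m + 2) + q * τ / (2 * s)) ≤
          2 / t ^ 2 * tiltTerm ν P z (hsq T z) t - 2 * mixTerm ν P T z t := by
        have : 0 ≤ 2 / t ^ 2 * tiltTerm ν P z (hsq T z) t := by positivity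
        linarith
      have m6 : -(s * q * t ^ (m + 2) + q * τ / (2 * s)) / t ^ (m + 3) / (2 * q) ≤
          (2 / t ^ 2 * tiltTerm ν P z (hsq T z) t - 2 * mixTerm ν P T z t) / t ^ (m + 3)
            / (2 * q) := by gcongr
      have m7 : -(s * q * t ^ (m + 2) + q * τ / (2 * s)) / t ^ (m + 3) / (2 * q)
          = -(s * t⁻¹ / 2) - (2 / t ^ 2 * τ + 0) / t ^ (m + 1) / (8 * s) := by
        have e1 : t ^ (m + 3) = t ^ m * t ^ 3 := pow_add _ _ _
        have e2 : t ^ (m + 1) = t ^ m * t := pow_succ _ _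
        have e3 : t ^ (m + 2) = t ^ m * t ^ 2 := pow_add _ _ _
        have hrm : t ^ m ≠ 0 := by positivity
        rw [e1, e2, e3]
        field_simp
        ring
      rw [m7] at m6
      linarith
    have hmono : √(height m ν T z r₁ + ε) + s * Real.log r₁ / 2 + ratio m ν z r₁ / (8 * s)
        ≤ √(height m ν T z r₂ + ε) + s * Real.log r₂ / 2 + ratio m ν z r₂ / (8 * s) := by
      have hm : MonotoneOn
          (fun t => √(height m ν T z t + ε) + s * Real.log t / 2 + ratio m ν z t / (8 * s))
          (Icc r₁ r₂) := by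
        refine monotoneOn_of_deriv_nonneg (convex_Icc _ _) ?_ ?_ ?_
        · intro t ht
          obtain ⟨d, -, hd⟩ := hd t ht
          exact hd.continuousAt.continuousWithinAt
        · intro t ht
          obtain ⟨d, -, hd⟩ := hd t (interior_subset ht)
          exact hd.differentiableAt.differentiableWithinAt
        · intro t ht
          obtain ⟨d, hd0, hd⟩ := hd t (interior_subset ht)
          rw [hd.deriv]; exact hd0
      exact hm ⟨le_rfl, h12⟩ ⟨h12, le_rfl⟩ h12
    have hlog : Real.log (r₂ / r₁) = Real.log r₂ - Real.log r₁ :=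
      Real.log_div (by linarith [h1.trans_le h12]) h1.ne'
    rw [hlog]
    have e : (ratio m ν z r₂ - ratio m ν z r₁) / (8 * s)
        = ratio m ν z r₂ / (8 * s) - ratio m ν z r₁ / (8 * s) := sub_div _ _ _
    rw [e]
    nlinarith
  have hl : Tendsto (fun ε : ℝ => √(height m ν T z r₁ + ε)) (𝓝[>] 0)
      (𝓝 √(height m ν T z r₁)) := by
    have : Continuous fun ε : ℝ => √(height m ν T z r₁ + ε) := by fun_prop
    have h2 := this.tendsto 0
    rw [add_zero] at h2
    exact h2.mono_left nhdsWithin_le_nhds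
  have hr : Tendsto (fun ε : ℝ => √(height m ν T z r₂ + ε) + s * Real.log (r₂ / r₁) / 2
      + (ratio m ν z r₂ - ratio m ν z r₁) / (8 * s)) (𝓝[>] 0)
      (𝓝 (√(height m ν T z r₂) + s * Real.log (r₂ / r₁) / 2
      + (ratio m ν z r₂ - ratio m ν z r₁) / (8 * s))) := by
    have : Continuous fun ε : ℝ => √(height m ν T z r₂ + ε) + s * Real.log (r₂ / r₁) / 2
      + (ratio m ν z r₂ - ratio m ν z r₁) / (8 * s) := by fun_prop
    have h2 := this.tendsto 0
    rw [add_zero] at h2
    exact h2.mono_left nhdsWithin_le_nhds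
  exact le_of_tendsto_of_tendsto hl hr (eventually_mem_nhdsWithin.mono fun ε hε => key ε hε)

lemma le_sqrt_of_param {a b L D : ℝ} (hL : 0 ≤ L) (hD : 0 ≤ D)
    (h : ∀ s > 0, a ≤ b + s * L / 2 + D / (8 * s)) : a ≤ b + √(L * D) / 2 := by
  have key : ∀ ε > 0, a ≤ b + √((L + ε) * (D + ε)) / 2 := by
    intro ε hε
    have hL' : 0 < L + ε := by linarith
    have hD' : 0 < D + ε := by linarith
    have hs : 0 < √(D + ε) / (2 * √(L + ε)) := by positivity
    have h1 := h _ hs
    have e1 : √(D + ε) / (2 * √(L + ε)) * (L + ε) / 2 = √((L + ε) * (D + ε)) / 4 := by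
      rw [Real.sqrt_mul hL'.le]
      have : L + ε = √(L + ε) * √(L + ε) := (Real.mul_self_sqrt hL'.le).symm
      have h0 : √(L + ε) ≠ 0 := by positivity
      nth_rewrite 2 [this]
      field_simp
      ring
    have e2 : (D + ε) / (8 * (√(D + ε) / (2 * √(L + ε)))) = √((L + ε) * (D + ε)) / 4 := by
      rw [Real.sqrt_mul hL'.le]
      have : D + ε = √(D + ε) * √(D + ε) := (Real.mul_self_sqrt hD'.le).symm
      have h0 : √(D + ε) ≠ 0 := by positivity
      have h00 : √(L + ε) ≠ 0 := by positivity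
      nth_rewrite 1 [this]
      field_simp
      ring
    have m1 : √(D + ε) / (2 * √(L + ε)) * L / 2 ≤ √(D + ε) / (2 * √(L + ε)) * (L + ε) / 2 := by
      gcongr; linarith
    have m2 : D / (8 * (√(D + ε) / (2 * √(L + ε))))
        ≤ (D + ε) / (8 * (√(D + ε) / (2 * √(L + ε)))) := by
      gcongr; linarith
    rw [e1] at m1
    rw [e2] at m2
    linarith
  have hr : Tendsto (fun ε : ℝ => b + √((L + ε) * (D + ε)) / 2) (𝓝[>] 0)
      (𝓝 (b + √(L * D) / 2)) := by
    have : Continuous fun ε : ℝ => b + √((L + ε) * (D + ε)) / 2 := by fun_prop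
    have h2 := this.tendsto 0
    rw [add_zero, add_zero] at h2
    exact h2.mono_left nhdsWithin_le_nhds
  exact ge_of_tendsto hr (eventually_mem_nhdsWithin.mono fun ε hε => key ε hε)

/-- **Logarithmic stability of the height** at a fixed centre: for every plane `T`. -/
theorem sqrt_height_le [IsFiniteMeasure ν] (h : LocStat m O ν P) {r₁ r₂ : ℝ} (h1 : 0 < r₁)
    (h12 : r₁ ≤ r₂) (hball : closedBall z r₂ ⊆ O) :
    √(height m ν T z r₁) ≤ √(height m ν T z r₂)
      + √(Real.log (r₂ / r₁) * (ratio m ν z r₂ - ratio m ν z r₁)) / 2 := by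
  refine le_sqrt_of_param ?_ ?_ fun s hs => sqrt_height_le_param h h1 h12 hball hs
  · refine Real.log_nonneg ?_
    rw [le_div_iff₀ h1]; linarith
  · have := h.ratio_mono h1 h12 hball
    linarith

end HS

end Vale.Agent.P214
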