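import Vale.Agent.P214.HS.Height

/-! Mean value inequality for the squared height over a plane, and sup bounds on the support. -/

open Set Filter Topology MeasureTheory Metric
open scoped RealInnerProductSpace

set_option linter.unusedSectionVars false

namespace Vale.Agent.P214

variable {E : Type*} [NormedAddCommGroup E] [InnerProductSpace ℝ E] [FiniteDimensional ℝ E]
  [MeasurableSpace E] [BorelSpace E]

variable {m : ℕ} {O : Set E} {ν : Measure E} {P : E → E →L[ℝ] E}

namespace HS

/-- `tr (A ∘ P)` -/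
noncomputable def trAP (A B : E →L[ℝ] E) : ℝ :=
  ∑ k, ⟪stdOrthonormalBasis ℝ E k, A (B (stdOrthonormalBasis ℝ E k))⟫

/-- stationarity tested with `f(y) A(y - c)`, `A` linear -/
lemma linear_field [IsFiniteMeasure ν] (h : LocStat m O ν P) (A : E →L[ℝ] E) (c : E) {f : E → ℝ}
    (hf : ContDiff ℝ 1 f) (hc : HasCompactSupport f) (hs : tsupport f ⊆ O) :
    ∫ y, (f y * trAP A (P y) + fderiv ℝ f y (P y (A (y - c)))) ∂ν = 0 := by
  classical
  set b := stdOrthonormalBasis ℝ E with hb
  set F : Fin (Module.finrank ℝ E) → E → ℝ := fun k y => f y * ⟪b k, A (y - c)⟫ with hF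
  have hlin : ∀ k, ContDiff ℝ 1 fun y : E => ⟪b k, A (y - c)⟫ := fun k =>
    contDiff_const.inner ℝ (A.contDiff.comp (contDiff_id.sub contDiff_const))
  have hFc : ∀ k, ContDiff ℝ 1 (F k) := fun k => hf.mul (hlin k)
  have hFs : ∀ k, HasCompactSupport (F k) := fun k => hc.mul_right
  have hFt : ∀ k, tsupport (F k) ⊆ O := fun k =>
    (closure_mono (Function.support_mul_subset_left _ _)).trans hs
  have hder : ∀ k y w, fderiv ℝ (F k) y w = fderiv ℝ f y w * ⟪b k, A (y - c)⟫
      + f y * ⟪b k, A w⟫ := by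
    intro k y w
    have h1 : HasFDerivAt f (fderiv ℝ f y) y := (hf.differentiable (by norm_num) y).hasFDerivAt
    have h2 : HasFDerivAt (fun y : E => ⟪b k, A (y - c)⟫) ((innerSL ℝ (b k)).comp A) y := by
      have h3 : HasFDerivAt (fun y : E => y - c) (ContinuousLinearMap.id ℝ E) y :=
        (hasFDerivAt_id y).sub_const c
      have h4 : HasFDerivAt (fun y : E => A (y - c)) A y :=
        (A.hasFDerivAt (x := y - c)).comp y h3
      exact ((innerSL ℝ (b k)).hasFDerivAt (x := A (y - c))).comp y h4
    have h4 := h1.mul h2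
    have h5 : fderiv ℝ (F k) y = f y • (innerSL ℝ (b k)).comp A + ⟪b k, A (y - c)⟫ • fderiv ℝ f y :=
      h4.fderiv
    rw [h5]
    simp only [_root_.add_apply, _root_.smul_apply, ContinuousLinearMap.comp_apply,
      innerSL_apply_apply, smul_eq_mul]
    ring
  have hstat : ∀ k, ∫ y, fderiv ℝ (F k) y (P y (b k)) ∂ν = 0 := fun k =>
    h.stat (F k) (b k) (hFc k) (hFs k) (hFt k)
  have hint : ∀ k, Integrable (fun y => fderiv ℝ (F k) y (P y (b k))) ν := fun k =>
    h.integrable_fderiv (hFc k) (hFs k) continuous_const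
  have hsum : ∫ y, ∑ k, fderiv ℝ (F k) y (P y (b k)) ∂ν = 0 := by
    rw [integral_finsetSum _ fun k _ => hint k]
    exact Finset.sum_eq_zero fun k _ => hstat k
  rw [← hsum]
  refine integral_congr_ae (Eventually.of_forall fun y => ?_)
  simp only [hder]
  rw [Finset.sum_add_distrib, ← Finset.mul_sum]
  have h6 : ∑ k, fderiv ℝ f y (P y (b k)) * ⟪b k, A (y - c)⟫
      = fderiv ℝ f y (P y (A (y - c))) := by
    conv_rhs => rw [← b.sum_repr' (A (y - c))]
    simp only [map_sum, map_smul, smul_eq_mul]
    exact Finset.sum_congr rfl fun k _ => by ring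
  rw [h6]
  unfold trAP
  ring

/-- the trace of a product of two orthogonal projections is nonnegative -/
lemma trAP_nonneg (S R : Submodule ℝ E) : 0 ≤ trAP S.starProjection R.starProjection := by
  unfold trAP
  set b := stdOrthonormalBasis ℝ E
  have e : ∀ k, ⟪b k, S.starProjection (R.starProjection (b k))⟫
      = ⟪S.starProjection (b k), R.starProjection (b k)⟫ := fun k => by
    rw [Submodule.inner_starProjection_left_eq_right]
  -- use `tr (S R) = tr (S S R) = sum |R S b_k|^2`
  have h1 : ∑ k, ⟪b k, S.starProjection (R.starProjection (b k))⟫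
      = LinearMap.trace ℝ E ((S.starProjection.comp R.starProjection : E →L[ℝ] E) : E →ₗ[ℝ] E) := by
    rw [LinearMap.trace_eq_sum_inner _ b]; rfl
  have h2 : ((S.starProjection.comp R.starProjection : E →L[ℝ] E) : E →ₗ[ℝ] E)
      = (S.starProjection : E →ₗ[ℝ] E) ∘ₗ ((S.starProjection.comp R.starProjection : E →L[ℝ] E)
        : E →ₗ[ℝ] E) := by
    ext v
    simp only [ContinuousLinearMap.coe_coe, ContinuousLinearMap.comp_apply, LinearMap.comp_apply]
    exact (Submodule.starProjection_eq_self_iff.2 (S.starProjection_apply_mem _)).symm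
  rw [h1, h2, LinearMap.trace_comp_comm', LinearMap.trace_eq_sum_inner _ b]
  refine Finset.sum_nonneg fun k _ => ?_
  simp only [ContinuousLinearMap.coe_coe, ContinuousLinearMap.comp_apply, LinearMap.comp_apply]
  rw [← Submodule.inner_starProjection_left_eq_right, real_inner_comm,
    ← inner_starProjection_self]
  exact real_inner_self_nonneg

/-- profile of the potential of the cut-off -/
noncomputable def pprof (s : ℝ) : ℝ := (max (1 - s) 0) ^ 3 / 3

lemma hasDerivAt_pprof (s : ℝ) : HasDerivAt pprof (-prof s) s := by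
  rcases lt_trichotomy s 1 with h | h | h
  · have h1 : HasDerivAt (fun s : ℝ => (1 - s) ^ 3 / 3) (-(1 - s) ^ 2) s := by
      have := (((hasDerivAt_id s).const_sub 1).pow 3).div_const 3
      refine this.congr_deriv ?_
      simp; ring
    have h2 : prof s = (1 - s) ^ 2 := by unfold prof; rw [max_eq_left (by linarith)]
    rw [h2]
    refine h1.congr_of_eventuallyEq ?_
    filter_upwards [Iio_mem_nhds h] with t ht
    unfold pprof; rw [max_eq_left (by have := mem_Iio.1 ht; linarith)]
  · subst h
    have h2 : prof 1 = 0 := prof_of_one_le le_rfl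
    rw [h2, neg_zero]
    rw [hasDerivAt_iff_isLittleO]
    have h0 : pprof 1 = 0 := by unfold pprof; simp
    rw [h0]
    have h3 : (fun x' : ℝ => pprof x' - 0 - (x' - 1) • (0:ℝ)) = pprof := by
      funext x; simp
    rw [h3]
    rw [Asymptotics.isLittleO_iff]
    intro c hc
    have hev : ∀ᶠ t in 𝓝 (1:ℝ), |t - 1| < min 1 c := by
      filter_upwards [Metric.ball_mem_nhds (1:ℝ) (lt_min one_pos hc)] with t ht
      rwa [mem_ball, Real.dist_eq] at ht
    filter_upwards [hev] with t ht
    have ht1 : |t - 1| ≤ 1 := (ht.le.trans (min_le_left _ _))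
    have ht2 : |t - 1| ≤ c := (ht.le.trans (min_le_right _ _))
    have h4 : max (1 - t) 0 ≤ |t - 1| := by
      rw [abs_sub_comm]; exact max_le (le_abs_self _) (abs_nonneg _)
    have h5 : 0 ≤ max (1 - t) 0 := le_max_right _ _
    unfold pprof
    rw [Real.norm_of_nonneg (by positivity), Real.norm_eq_abs]
    calc (max (1 - t) 0) ^ 3 / 3 ≤ |t - 1| ^ 3 / 3 := by gcongr
      _ = |t - 1| * |t - 1| * |t - 1| / 3 := by ring
      _ ≤ c * 1 * |t - 1| / 3 := by gcongr
      _ ≤ c * |t - 1| := by nlinarith [abs_nonneg (t - 1)]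
  · have h2 : prof s = 0 := prof_of_one_le h.le
    rw [h2, neg_zero]
    refine (hasDerivAt_const s (0:ℝ)).congr_of_eventuallyEq ?_
    filter_upwards [Ioi_mem_nhds h] with t ht
    unfold pprof; rw [max_eq_right (by have := mem_Ioi.1 ht; linarith)]; simp

lemma contDiff_pprof : ContDiff ℝ 1 pprof := by
  have h : deriv pprof = fun s => -prof s := funext fun s => (hasDerivAt_pprof s).deriv
  rw [show (1 : WithTop ℕ∞) = 0 + 1 from rfl, contDiff_succ_iff_deriv]
  refine ⟨fun s => (hasDerivAt_pprof s).differentiableAt, by simp, ?_⟩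
  rw [h]
  exact contDiff_zero.2 continuous_prof.neg

lemma pprof_nonneg (s : ℝ) : 0 ≤ pprof s := by unfold pprof; positivity

lemma pprof_of_one_le {s : ℝ} (h : 1 ≤ s) : pprof s = 0 := by
  unfold pprof; rw [max_eq_right (by linarith)]; simp

/-- potential of the cut-off: `∇ pcut = - cut · (y - x)` -/
noncomputable def pcut (x : E) (r : ℝ) (y : E) : ℝ := r ^ 2 / 2 * pprof (‖y - x‖ ^ 2 / r ^ 2)

lemma pcut_nonneg (x : E) (r : ℝ) (y : E) : 0 ≤ pcut x r y :=
  mul_nonneg (by positivity) (pprof_nonneg _)

lemma contDiff_pcut (x : E) (r : ℝ) : ContDiff ℝ 1 (pcut x r) := by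
  unfold pcut
  refine contDiff_const.mul (contDiff_pprof.comp ?_)
  exact ((contDiff_id.sub contDiff_const).norm_sq ℝ).div_const _

variable {x : E} {r : ℝ} {T : Submodule ℝ E}

lemma fderiv_pcut (hr : 0 < r) (y v : E) :
    fderiv ℝ (pcut x r) y v = -(cut x r y * ⟪y - x, v⟫) := by
  have h1 : HasFDerivAt (fun y : E => ‖y - x‖ ^ 2 / r ^ 2)
      ((2 / r ^ 2) • innerSL ℝ (y - x)) y := by
    have h3 : HasFDerivAt (fun y : E => y - x) (ContinuousLinearMap.id ℝ E) y :=
      (hasFDerivAt_id y).sub_const x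
    have h4 := (h3.norm_sq).const_mul (1 / r ^ 2)
    have h5 : (fun y : E => 1 / r ^ 2 * ‖y - x‖ ^ 2) = fun y : E => ‖y - x‖ ^ 2 / r ^ 2 := by
      funext y; ring
    rw [h5] at h4
    refine h4.congr_fderiv ?_
    ext w
    simp
    ring
  have h2 := ((hasDerivAt_pprof (‖y - x‖ ^ 2 / r ^ 2)).comp_hasFDerivAt y h1).const_mul (r ^ 2 / 2)
  have h3 : fderiv ℝ (pcut x r) y = _ := h2.fderiv
  rw [h3]
  simp only [_root_.smul_apply, innerSL_apply_apply, smul_eq_mul]
  unfold cut
  field_simp

lemma hasCompactSupport_pcut (hr : 0 < r) : HasCompactSupport (pcut x r) := by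
  refine HasCompactSupport.of_support_subset_isCompact (isCompact_closedBall x r) ?_
  intro y hy
  rw [mem_closedBall, dist_eq_norm]
  by_contra h
  exact hy (by unfold pcut; rw [pprof_of_one_le (one_le_of_le hr (not_le.mp h).le), mul_zero])

lemma tsupport_pcut (hr : 0 < r) : tsupport (pcut x r) ⊆ closedBall x r := by
  refine closure_minimal ?_ isClosed_closedBall
  intro y hy
  rw [mem_closedBall, dist_eq_norm]
  by_contra h
  exact hy (by unfold pcut; rw [pprof_of_one_le (one_le_of_le hr (not_le.mp h).le), mul_zero])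

/-- the gradient term of a squared height is nonnegative at every centre -/
lemma gradTerm_hsq_nonneg [IsFiniteMeasure ν] (h : LocStat m O ν P) (hr : 0 < r)
    (hball : closedBall x r ⊆ O) (c : E) : 0 ≤ gradTerm ν P x (hsq T c) r := by
  have key := linear_field h Tᗮ.starProjection c (contDiff_pcut x r) (hasCompactSupport_pcut hr)
    ((tsupport_pcut hr).trans hball)
  have hint2 : Integrable
      (fun y => fderiv ℝ (pcut x r) y (P y (Tᗮ.starProjection (y - c)))) ν :=
    h.integrable_fderiv (contDiff_pcut x r) (hasCompactSupport_pcut hr) (by fun_prop)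
  have e1 : gradTerm ν P x (hsq T c) r
      = -2 * ∫ y, fderiv ℝ (pcut x r) y (P y (Tᗮ.starProjection (y - c))) ∂ν := by
    unfold gradTerm
    rw [← integral_const_mul]
    refine integral_congr_ae ?_
    filter_upwards [h.proj] with y hy
    obtain ⟨S, -, hS⟩ := hy
    rw [fderiv_hsq, fderiv_pcut hr, hS]
    have : ⟪y - x, S.starProjection (Tᗮ.starProjection (y - c))⟫
        = ⟪Tᗮ.starProjection (y - c), S.starProjection (y - x)⟫ := by
      rw [← Submodule.inner_starProjection_left_eq_right, real_inner_comm]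
    rw [this]; ring
  have hint1 : Integrable (fun y => pcut x r y * trAP Tᗮ.starProjection (P y)) ν := by
    have hM : AEStronglyMeasurable (fun y => pcut x r y * trAP Tᗮ.starProjection (P y)) ν := by
      refine (contDiff_pcut x r).continuous.aestronglyMeasurable.mul ?_
      unfold trAP
      refine Finset.aestronglyMeasurable_fun_sum _ fun k _ => ?_
      refine aestronglyMeasurable_const.inner ?_
      refine Tᗮ.starProjection.continuous.comp_aestronglyMeasurable ?_
      exact aesm_clm_apply h.meas aestronglyMeasurable_const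
    obtain ⟨C, hC⟩ := (contDiff_pcut x r).continuous.bounded_above_of_compact_support
      (hasCompactSupport_pcut (x := x) hr)
    refine Integrable.mono' (integrable_const (C * Fintype.card (Fin (Module.finrank ℝ E)))) hM ?_
    filter_upwards [h.norm_le] with y hy
    rw [norm_mul]
    have hC0 : 0 ≤ C := (norm_nonneg _).trans (hC y)
    refine mul_le_mul (hC y) ?_ (norm_nonneg _) hC0
    unfold trAP
    refine (norm_sum_le _ _).trans ?_
    have : ∀ k ∈ (Finset.univ : Finset (Fin (Module.finrank ℝ E))),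
        ‖⟪stdOrthonormalBasis ℝ E k,
          Tᗮ.starProjection (P y (stdOrthonormalBasis ℝ E k))⟫‖ ≤ 1 := by
      intro k _
      refine (norm_inner_le_norm _ _).trans ?_
      have hn : ‖stdOrthonormalBasis ℝ E k‖ = 1 := (stdOrthonormalBasis ℝ E).norm_eq_one k
      rw [hn, one_mul]
      calc ‖Tᗮ.starProjection (P y (stdOrthonormalBasis ℝ E k))‖
          ≤ 1 * ‖P y (stdOrthonormalBasis ℝ E k)‖ :=
            Tᗮ.starProjection.le_of_opNorm_le Tᗮ.starProjection_norm_le _
        _ ≤ 1 * (1 * ‖stdOrthonormalBasis ℝ E k‖) := by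
            gcongr; exact (P y).le_of_opNorm_le hy _
        _ = 1 := by rw [hn]; norm_num
    refine (Finset.sum_le_sum this).trans ?_
    simp
  rw [integral_add hint1 hint2] at key
  have h3 : 0 ≤ ∫ y, pcut x r y * trAP Tᗮ.starProjection (P y) ∂ν := by
    refine integral_nonneg_of_ae ?_
    filter_upwards [h.proj] with y hy
    obtain ⟨S, -, hS⟩ := hy
    rw [hS]
    exact mul_nonneg (pcut_nonneg x r y) (trAP_nonneg _ _)
  rw [e1]; linarith

/-- monotonicity of the mean of a squared height at every centre -/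
lemma mean_mono [IsFiniteMeasure ν] (h : LocStat m O ν P) {r₁ r₂ : ℝ} (h1 : 0 < r₁)
    (h12 : r₁ ≤ r₂) (hball : closedBall x r₂ ⊆ O) (c : E) :
    wmass ν x (hsq T c) r₁ / r₁ ^ m ≤ wmass ν x (hsq T c) r₂ / r₂ ^ m := by
  have := h.ratio_growth (contDiff_hsq T c) (hsq_nonneg T c) h1 h12 hball (G := 0) le_rfl
    (fun s hs => by
      have := gradTerm_hsq_nonneg (T := T) h (h1.trans_le hs.1)
        ((closedBall_subset_closedBall hs.2).trans hball) c
      linarith)
  simpa using this

/-- **Mean value inequality**: at support points the squared height is at most its mean. -/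
theorem hsq_le_mean [IsFiniteMeasure ν] (h : LocStat m O ν P) {a : ℝ} (hd : DensLow m O ν a)
    (hx : x ∈ ν.support) (hr : 0 < r) (hball : closedBall x r ⊆ O) (c : E) :
    a * hsq T c x ≤ wmass ν x (hsq T c) r / r ^ m := by
  rcases le_or_gt a 0 with ha | ha
  · have h1 : 0 ≤ wmass ν x (hsq T c) r := integral_nonneg fun y =>
      mul_nonneg (cut_nonneg x r y) (hsq_nonneg T c y)
    have h2 := hsq_nonneg T c x
    calc a * hsq T c x ≤ 0 := mul_nonpos_of_nonpos_of_nonneg ha h2
      _ ≤ _ := by positivity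
  -- for every `ε`
  have hcont : Continuous (hsq T c) := (contDiff_hsq T c (k := 0)).continuous
  refine le_of_forall_sub_le fun ε hε => ?_
  have hev : ∀ᶠ y in 𝓝 x, hsq T c x - ε / a < hsq T c y := by
    refine hcont.continuousAt.eventually (lt_mem_nhds ?_)
    have : 0 < ε / a := by positivity
    linarith
  obtain ⟨δ, hδ, hball'⟩ := Metric.eventually_nhds_iff_ball.1 hev
  set s := min δ r with hs
  have hs0 : 0 < s := lt_min hδ hr
  have hsr : s ≤ r := min_le_right _ _
  have h1 := mean_mono (T := T) h hs0 hsr hball c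
  have h2 := h.ratio_ge hd hx hs0 ((closedBall_subset_closedBall hsr).trans hball)
  have hcutint : Integrable (fun y => cut x s y) ν :=
    integrable_of_ball (x := x) (continuous_cut x s) hs0 fun y hy => cut_eq_zero hs0 hy
  have h3 : (hsq T c x - ε / a) * ∫ y, cut x s y ∂ν ≤ wmass ν x (hsq T c) s := by
    unfold wmass
    rw [← integral_const_mul]
    refine integral_mono (hcutint.const_mul _) (integrable_cut_hsq hs0 x) fun y => ?_
    simp only
    by_cases hy : s ≤ ‖y - x‖
    · rw [cut_eq_zero hs0 hy]; simp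
    · have hyb : y ∈ ball x δ := by
        rw [mem_ball, dist_eq_norm]; exact (not_le.1 hy).trans_le (min_le_left _ _)
      have := hball' y hyb
      have h4 := cut_nonneg x s y
      nlinarith
  have h5 : (hsq T c x - ε / a) * ratio m ν x s ≤ wmass ν x (hsq T c) s / s ^ m := by
    unfold ratio
    rw [← mul_div_assoc]
    gcongr
  by_cases hneg : hsq T c x - ε / a ≤ 0
  · have h6 : 0 ≤ wmass ν x (hsq T c) r := integral_nonneg fun y =>
      mul_nonneg (cut_nonneg x r y) (hsq_nonneg T c y)
    have h7 : a * hsq T c x ≤ ε := by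
      have : hsq T c x ≤ ε / a := by linarith
      rwa [le_div_iff₀ ha, mul_comm] at this
    have : 0 ≤ wmass ν x (hsq T c) r / r ^ m := by positivity
    linarith
  · have h8 : (hsq T c x - ε / a) * a ≤ (hsq T c x - ε / a) * ratio m ν x s :=
      mul_le_mul_of_nonneg_left h2 (not_le.1 hneg).le
    have h9 : (hsq T c x - ε / a) * a = a * hsq T c x - ε := by field_simp
    linarith

/-- **Collapse of the support towards a centre**, in terms of the height at scale `ρ`. -/
theorem hsq_le_height [IsFiniteMeasure ν] (h : LocStat m O ν P) {a : ℝ} (hd : DensLow m O ν a)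
    {z y : E} {ρ : ℝ} (hρ : 0 < ρ) (hball : closedBall z ρ ⊆ O) (hy : y ∈ ν.support)
    (hyz : ‖y - z‖ ≤ ρ / 4) :
    a * hsq T z y ≤ 2 * 4 ^ m * ρ ^ 2 * height m ν T z ρ := by
  have hsub : closedBall y (ρ / 4) ⊆ closedBall z (ρ / 2) := by
    refine closedBall_subset_closedBall' ?_
    rw [dist_eq_norm]; linarith
  have h1 := hsq_le_mean (T := T) h hd hy (by positivity : 0 < ρ / 4)
    ((hsub.trans (closedBall_subset_closedBall (by linarith))).trans hball) z
  have h2 : wmass ν y (hsq T z) (ρ / 4) ≤ 2 * wmass ν z (hsq T z) ρ := by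
    unfold wmass
    rw [← integral_const_mul]
    refine integral_mono (integrable_cut_hsq (by positivity) y)
      ((integrable_cut_hsq hρ z).const_mul 2) fun w => ?_
    simp only
    by_cases hw : ρ / 4 ≤ ‖w - y‖
    · rw [cut_eq_zero (by positivity) hw, zero_mul]
      have h3 := cut_nonneg z ρ w
      have h4 := hsq_nonneg T z w
      positivity
    · have h5 : w ∈ closedBall z (ρ / 2) := hsub (by
        rw [mem_closedBall, dist_eq_norm]; exact (not_le.1 hw).le)
      rw [mem_closedBall, dist_eq_norm] at h5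
      have h6 := cut_ge (x := z) (y := w) hρ h5
      have h7 := cut_le_one y (ρ / 4) w
      have h8 := hsq_nonneg T z w
      nlinarith
  calc a * hsq T z y ≤ wmass ν y (hsq T z) (ρ / 4) / (ρ / 4) ^ m := h1
    _ ≤ (2 * wmass ν z (hsq T z) ρ) / (ρ / 4) ^ m := by gcongr
    _ = 2 * 4 ^ m * ρ ^ 2 * height m ν T z ρ := by
        unfold height
        rw [div_pow, pow_add]
        field_simp

/-- **Collapse at centres with small monotonicity deficit.** -/
theorem hsq_le_of_deficit [IsFiniteMeasure ν] (h : LocStat m O ν P) {a : ℝ}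
    (hd : DensLow m O ν a) {z y : E} {ρ R : ℝ} (hρ : 0 < ρ) (hρR : ρ ≤ R)
    (hball : closedBall z R ⊆ O) (hy : y ∈ ν.support) (hyz : ‖y - z‖ ≤ ρ / 4) :
    a * hsq T z y ≤ 4 * 4 ^ m * ρ ^ 2 *
      (height m ν T z R + Real.log (R / ρ) * (ratio m ν z R - ratio m ν z ρ)) := by
  have h1 := hsq_le_height (T := T) h hd hρ ((closedBall_subset_closedBall hρR).trans hball) hy hyz
  have h2 := sqrt_height_le (T := T) h hρ hρR hball
  have hH1 : 0 ≤ height m ν T z ρ := height_nonneg hρ
  have hH2 : 0 ≤ height m ν T z R := height_nonneg (hρ.trans_le hρR)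
  have hL : 0 ≤ Real.log (R / ρ) := Real.log_nonneg (by rw [le_div_iff₀ hρ]; linarith)
  have hD : 0 ≤ ratio m ν z R - ratio m ν z ρ := by
    have := h.ratio_mono hρ hρR hball
    linarith
  have h3 : height m ν T z ρ ≤
      2 * (height m ν T z R + Real.log (R / ρ) * (ratio m ν z R - ratio m ν z ρ)) := by
    have e1 := Real.sq_sqrt hH1
    have e2 := Real.sq_sqrt hH2
    have e3 := Real.sq_sqrt (mul_nonneg hL hD)
    set A := √(height m ν T z ρ)
    set B := √(height m ν T z R)
    set C := √(Real.log (R / ρ) * (ratio m ν z R - ratio m ν z ρ))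
    have hA : 0 ≤ A := Real.sqrt_nonneg _
    have hB : 0 ≤ B := Real.sqrt_nonneg _
    have hC : 0 ≤ C := Real.sqrt_nonneg _
    rw [← e1, ← e2, ← e3]
    nlinarith [sq_nonneg (B - C / 2)]
  calc a * hsq T z y ≤ 2 * 4 ^ m * ρ ^ 2 * height m ν T z ρ := h1
    _ ≤ 2 * 4 ^ m * ρ ^ 2 *
        (2 * (height m ν T z R + Real.log (R / ρ) * (ratio m ν z R - ratio m ν z ρ))) := by gcongr
    _ = _ := by ring

end HS

end Vale.Agent.P214
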